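import Vale.Agent.P352L.Slot

/-!
# P352L, row WX: closed sources with compact support determine the values on all closed sources
-/

set_option linter.all false

open Filter Topology Metric
open scoped SchwartzMap ContDiff

namespace Vale.Agent.P352L.Wx

open Vale.Agent.P352.GF Vale.Agent.P352X
open Vale.Agent.P352X.ST (tsl)
open MvPolynomial (X)

noncomputable section

section cut

variable {E : Type*} [NormedAddCommGroup E] [NormedSpace ℝ E]

lemma sn_far {G : 𝓢(E, ℂ)} {R C : ℝ} {a : E} (hC : 0 ≤ C) (ha : ‖a‖ ≤ C * R)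
    (hG : ∀ z ∈ ball (0 : E) R, G z = 0) (N : ℕ) :
    ST.sn E ℂ N (tsl a G) ≤ (1 + C) ^ N * (2 ^ N * ST.sn E ℂ N G) := by
  classical
  have ts : tsupport G ⊆ (ball 0 R)ᶜ :=
    closure_minimal (fun z hz hb => hz (hG z hb)) isOpen_ball.isClosed_compl
  have b := ST.bd_sch G (le_refl N) (le_refl N)
  have b' : ST.Bd (fun z => if z ∈ ball (0 : E) R then 0 else
      2 ^ N * ST.sn E ℂ N G / (1 + ‖z‖) ^ N) N G := ⟨b.1, fun i hi z => by
    beta_reduce
    split_ifs with q
    · by_contra u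
      refine ts (support_iteratedFDeriv_subset (𝕜 := ℝ) i fun e => u ?_) q
      rw [e, norm_zero]
    · exact b.2 i hi z⟩
  refine ST.Bd.sn_le (b'.sub_const a) fun z => ?_
  split_ifs with q
  · rw [mul_zero]
    positivity
  · rw [mem_ball_zero_iff, not_lt] at q
    have h1 : 1 + ‖z‖ ≤ (1 + C) * (1 + ‖z - a‖) := by
      have := norm_le_norm_add_norm_sub' z a
      nlinarith [norm_nonneg (z - a), mul_le_mul_of_nonneg_left q hC]
    have h2 : (1 + ‖z‖) ^ N ≤ (1 + C) ^ N * (1 + ‖z - a‖) ^ N := by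
      rw [← mul_pow]
      gcongr
    refine (mul_le_mul_of_nonneg_right h2 (by positivity)).trans (le_of_eq ?_)
    have : (0 : ℝ) < 1 + ‖z - a‖ := by positivity
    field_simp

variable [FiniteDimensional ℝ E]

lemma exists_cut (h : 𝓢(E, ℂ)) : ∃ u : ℕ → 𝓢(E, ℂ),
    (∀ n, tsupport (u n) ⊆ closedBall 0 (2 * ((n : ℝ) + 1))) ∧
    (∀ n : ℕ, ∀ z ∈ ball (0 : E) ((n : ℝ) + 1), u n z = h z) ∧ Tendsto u atTop (𝓝 h) := by
  haveI := FiniteDimensional.proper ℝ E
  let b : ContDiffBump (0 : E) := ⟨1, 2, one_pos, one_lt_two⟩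
  have hb : ContDiff ℝ ∞ b := b.contDiff
  set L : ℕ → E →L[ℝ] E := fun n => ((n : ℝ) + 1)⁻¹ • ContinuousLinearMap.id ℝ E with hL
  have p : ∀ n : ℕ, (0 : ℝ) < (n : ℝ) + 1 := fun n => by positivity
  have nL : ∀ n z, ‖L n z‖ = ‖z‖ / ((n : ℝ) + 1) := fun n z => by
    simp only [hL, ContinuousLinearMap.smul_apply, ContinuousLinearMap.id_apply, norm_smul,
      norm_inv, Real.norm_of_nonneg (p n).le]
    rw [inv_mul_eq_div]
  have hLn : ∀ n, ‖L n‖ ≤ 1 := fun n =>
    ContinuousLinearMap.opNorm_le_bound _ zero_le_one fun z => by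
      rw [nL, one_mul]
      exact div_le_self (norm_nonneg _) (by linarith [(Nat.cast_nonneg n : (0 : ℝ) ≤ n)])
  have hcs : ∀ n, HasCompactSupport fun z => b (L n z) := fun n =>
    b.hasCompactSupport.comp_smul (c := ((n : ℝ) + 1)⁻¹) (by positivity)
  have ht : ∀ n, (fun z => (b (L n z) : ℂ)).HasTemperateGrowth := fun n =>
    ((hcs n).comp_left (g := fun x : ℝ => (x : ℂ)) (by simp)).hasTemperateGrowth
      (Complex.ofRealCLM.contDiff.comp (hb.comp (L n).contDiff))
  have e := fun n => SchwartzMap.smulLeftCLM_apply_apply (𝕜 := ℂ) (ht n) h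
  have one : ∀ n : ℕ, ∀ z ∈ ball (0 : E) ((n : ℝ) + 1),
      SchwartzMap.smulLeftCLM ℂ (fun z => (b (L n z) : ℂ)) h z = h z := fun n z hz => by
    rw [e, b.one_of_mem_closedBall, Complex.ofReal_one, one_smul]
    rw [mem_closedBall_zero_iff, nL]
    exact (div_le_one (p n)).2 (mem_ball_zero_iff.1 hz).le
  refine ⟨fun n => SchwartzMap.smulLeftCLM ℂ (fun z => (b (L n z) : ℂ)) h, fun n => ?_, one, ?_⟩
  · refine closure_minimal (fun z hz => ?_) isClosed_closedBall
    by_contra q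
    rw [mem_closedBall_zero_iff, not_le] at q
    refine hz ?_
    rw [e, b.zero_of_le_dist, Complex.ofReal_zero, zero_smul]
    rw [dist_zero_right, nL]
    exact (le_div_iff₀ (p n)).2 q.le
  · refine ST.tendsto_of_sn (fun N => ?_) fun z => ?_
    · obtain ⟨k, C, hC, hbd⟩ := ST.bd_of_temperate (b.hasCompactSupport.hasTemperateGrowth hb) N
      refine ⟨2 ^ N * 2 ^ (N + k) * C * ST.sn E ℂ (N + k) h, Eventually.of_forall fun n => ?_⟩
      refine ST.sn_mul (((hbd.comp (L n) le_rfl (hLn n)).ofReal).mono fun z => ?_) h _ (e n)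
      rw [one_pow, one_mul]
      gcongr
      exact ((L n).le_opNorm z).trans (mul_le_of_le_one_left (norm_nonneg _) (hLn n))
    · refine tendsto_const_nhds.congr' ?_
      filter_upwards [tendsto_natCast_atTop_atTop.eventually_ge_atTop ‖z‖] with n hn
      exact (one n z (mem_ball_zero_iff.2 (by linarith))).symm

/-- the part of `h` far from the origin stays small after a translation of comparable size -/
lemma cut_far (h : 𝓢(E, ℂ)) {C : ℝ} (hC : 0 ≤ C) {a : ℕ → E} (ha : ∀ n, ‖a n‖ ≤ C * ((n : ℝ) + 1)) :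
    ∃ u : ℕ → 𝓢(E, ℂ), (∀ n, tsupport (u n) ⊆ closedBall 0 (2 * ((n : ℝ) + 1))) ∧
      Tendsto (fun n => tsl (a n) h - tsl (a n) (u n)) atTop (𝓝 0) := by
  obtain ⟨u, h1, h2, h3⟩ := exists_cut h
  refine ⟨u, h1, ST.tendsto_zero_of_sn fun N => ?_⟩
  have t : Tendsto (fun n => h - u n) atTop (𝓝 0) := by
    simpa using h3.const_sub h
  have t' := (((ST.continuous_sn (E := E) (F := ℂ) N).tendsto 0).comp t).const_mul (2 ^ N)
  have t'' := t'.const_mul ((1 + C) ^ N)
  rw [map_zero, mul_zero, mul_zero] at t''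
  refine squeeze_zero (fun _ => apply_nonneg _ _) (fun n => ?_) t''
  rw [← map_sub]
  exact sn_far hC (ha n) (fun z hz => by simp [h2 n z hz]) N

omit [FiniteDimensional ℝ E] in
lemma dD_tsl (v a : E) (f : 𝓢(E, ℂ)) : dD v (tsl a f) = tsl a (dD v f) := by
  ext x
  rw [dD_eq, ST.tsl_apply, dD_eq]
  exact congrArg (· v) (fderiv_comp_sub (𝕜 := ℝ) (f := f) a)

lemma der_tsl (Λ : 𝓢(E, ℂ) →L[ℂ] ℂ) (e : E) (f : 𝓢(E, ℂ)) (t : ℝ) :
    HasDerivAt (fun s : ℝ => Λ (tsl (s • e) f)) (-Λ (dD e (tsl (t • e) f))) t := by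
  have d := Lie.der (g := fun _ => 1) (a := fun s : ℝ => s • (-e)) (F := tsl (t • e) f)
    (F' := -dD e (tsl (t • e) f)) (Ft := fun s => tsl ((t + s) • e) f) (hasDerivAt_const _ _)
    (by simpa using (hasDerivAt_id (0 : ℝ)).smul_const (-e)) rfl (zero_smul _ _)
    (.of_forall fun s x => by
      simp only [ST.tsl_apply, ContinuousLinearMap.one_apply]
      congr 1
      module)
    (fun x => by simp [dD_eq])
  rw [hasDerivAt_iff_tendsto_slope_zero, ← map_neg]
  refine ((Λ.continuous.tendsto _).comp d).congr fun s => ?_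
  simp only [Function.comp, ContinuousLinearMap.map_smul_of_tower, map_sub]

end cut

/-- closed sources -/
def Cl (F : I2 → Sch) : Prop := ∑ I, rD i0 I (F I) = 0

lemma Cl.map {F : I2 → Sch} (h : Cl F) {Λ : Sch →L[ℂ] Sch} (hΛ : Itw i0 i0 Λ) :
    Cl fun I => Λ (F I) := by
  simp only [Cl, hΛ.rD, ← map_sum]
  rw [h, map_zero]

lemma itw_tsl (a : V) : Itw i0 i0 (tsl a) := fun v F => dD_tsl _ a F

lemma sum_rD : ∑ I, ((sS 1 1 I : ℝ) : ℂ) • rD i0 I = pD i0 1 * pD i0 1 := by
  simp only [rD_sy, ← sy_X, ← map_smul, ← map_sum, ← map_mul]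
  refine sy_ext i0 fun p => ?_
  have := s_r 1 1 p
  simp only [map_add, map_smul, map_mul, map_sum, map_sub, MvPolynomial.aeval_X, smul_eq_mul,
    Fintype.sum_prod_type]
  simp only [mul_comm (((sS 1 1 _ : ℝ) : ℂ))]
  rw [this]
  simp [eta, o]

variable (lam : I2 → Sch →L[ℂ] ℂ)

lemma two (h1 : ∀ F : I2 → Sch, (∀ I, HasCompactSupport (F I)) → Cl F → ∑ I, lam I (F I) = 0)
    {F : I2 → Sch} (hF : Cl F) : ∑ J, lam J (pD i0 1 (pD i0 1 (F J))) = 0 := by
  classical
  have a : ∀ J f, lam J (pD i0 1 (pD i0 1 f)) =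
      ∑ I, ((sS 1 1 I : ℝ) : ℂ) • lam I (rD i0 J f) := fun J f => by
    have := ST.vanish_of_compact (lam J ∘L (pD i0 1 * pD i0 1) -
      ∑ I, ((sS 1 1 I : ℝ) : ℂ) • lam I ∘L rD i0 J) f fun u hc _ => ?_
    · simpa only [ContinuousLinearMap.sub_apply, ContinuousLinearMap.sum_apply,
        ContinuousLinearMap.comp_apply, ContinuousLinearMap.mul_apply,
        ContinuousLinearMap.smul_apply, sub_eq_zero] using this
    obtain ⟨P, hP⟩ : ∃ P, rD i0 J = sy i0 P := ⟨_, rD_sy _ _⟩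
    have q := h1 (fun I => sy i0 ((if I = J then X 1 * X 1 else 0) - ((sS 1 1 I : ℝ) : ℂ) • P) u)
      (fun I => hc.of_isClosed_subset (isClosed_tsupport _) (tsupport_sy _ _ u)) ?_
    · rw [← q]
      simp only [map_sub (sy i0), map_smul (sy i0), ← hP,
        apply_ite (sy i0), map_mul, sy_X, map_zero, ContinuousLinearMap.sub_apply,
        ContinuousLinearMap.smul_apply, map_sub, map_smul, Finset.sum_sub_distrib,
        ContinuousLinearMap.sum_apply, ContinuousLinearMap.comp_apply]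
      congr 1
      rw [Finset.sum_eq_single J (fun I _ n => by simp [n]) (by simp), if_pos rfl]
    · simp only [Cl, map_sub (sy i0), map_smul (sy i0), ← hP,
        apply_ite (sy i0), map_mul, sy_X, map_zero, ContinuousLinearMap.sub_apply,
        ContinuousLinearMap.smul_apply, map_sub, map_smul, Finset.sum_sub_distrib]
      rw [Finset.sum_eq_single J (fun I _ n => by simp [n]) (by simp), if_pos rfl, sub_eq_zero]
      have := DFunLike.congr_fun sum_rD (rD i0 J u)
      simp only [ContinuousLinearMap.sum_apply, ContinuousLinearMap.smul_apply] at this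
      rw [this]
      simp only [ContinuousLinearMap.mul_apply, pD, (itw_dD i0 _).rD]
  simp only [a]
  rw [Finset.sum_comm]
  simp only [← Finset.smul_sum, ← map_sum]
  rw [hF]
  simp

variable {lam} {a : ℕ → ℝ}

lemma one (h2 : ∀ F, Cl F →
      Tendsto (fun n => ∑ I, lam I (tsl (a n • bas 1 1) (F I))) atTop (𝓝 0))
    {F : I2 → Sch} (hF : Cl F) (h : ∀ s : ℝ, ∑ I, lam I (pD i0 1 (tsl (s • bas 1 1) (F I))) = 0) :
    ∑ I, lam I (F I) = 0 := by
  have d : ∀ t : ℝ, HasDerivAt (fun s : ℝ => ∑ I, lam I (tsl (s • bas 1 1) (F I))) 0 t := fun t => by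
    have := HasDerivAt.fun_sum fun I (_ : I ∈ Finset.univ) => der_tsl (lam I) (bas 1 1) (F I) t
    rwa [Finset.sum_neg_distrib, show ∑ I, lam I (dD (bas 1 1) (tsl (t • bas 1 1) (F I))) = 0 from
      h t, neg_zero] at this
  have c := is_const_of_deriv_eq_zero (fun t => (d t).differentiableAt) fun t => (d t).deriv
  have z : ∀ f : Sch, tsl ((0 : ℝ) • bas 1 1) f = f := fun f => by
    ext x
    simp [ST.tsl_apply]
  refine tendsto_nhds_unique (tendsto_const_nhds.congr fun n => ?_) (h2 F hF)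
  simpa only [z] using c 0 (a n)

/-- **closed sources** -/
theorem key (h1 : ∀ F : I2 → Sch, (∀ I, HasCompactSupport (F I)) → Cl F → ∑ I, lam I (F I) = 0)
    (h2 : ∀ F, Cl F → Tendsto (fun n => ∑ I, lam I (tsl (a n • bas 1 1) (F I))) atTop (𝓝 0))
    {F : I2 → Sch} (hF : Cl F) : ∑ I, lam I (F I) = 0 :=
  one h2 hF fun s => one h2 (F := fun I => pD i0 1 (tsl (s • bas 1 1) (F I)))
    ((hF.map (itw_tsl _)).map (itw_dD i0 _)) fun t => by
      simpa only [← (itw_tsl _).pD] using two lam h1 ((hF.map (itw_tsl (s • bas 1 1))).map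
        (itw_tsl (t • bas 1 1)))

end

end Vale.Agent.P352L.Wx
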